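import Mathlib
import Vale.Agent.P126.BoostMain

/-!
P126: duality of metric entropy with an absolute scale and any exponent above one.
-/

namespace Vale.Agent.Results.P126.NearLinearDuality

open Vale.Agent.P126
open scoped Pointwise

/-- There is an absolute `C` such that, for every natural `D ≥ 1`, every dimension and all
origin-symmetric convex bodies `K, L`, with `a = C D`:
`log N(K,L) ≤ C D³ (log N(L°, a⁻¹K°)) ^ (1 + 1/D)` and the dual inequality. -/
theorem result :
    ∃ C : ℝ, 1 ≤ C ∧ ∀ D : ℕ, 1 ≤ D → ∀ (n : ℕ)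
      (K L : Set (EuclideanSpace ℝ (Fin n))), IsSymBody K → IsSymBody L →
        Real.log (covNum K L) ≤ C * (D : ℝ) ^ 3 *
          Real.log (covNum (polarBody L) ((C * (D : ℝ))⁻¹ • polarBody K)) ^ (1 + 1 / (D : ℝ)) ∧
        Real.log (covNum (polarBody L) ((C * (D : ℝ)) • polarBody K)) ≤ C * (D : ℝ) ^ 3 *
          Real.log (covNum K L) ^ (1 + 1 / (D : ℝ)) :=
  Boost.exists_uniform

end Vale.Agent.Results.P126.NearLinearDuality
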