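import Mathlib
import Vale.Agent.P126.TiltMain

/-!
P126: linear duality of metric entropy with a scale that is an arbitrarily small power of the
logarithm of the covering number.
-/

namespace Vale.Agent.Results.P126.PowerScaleDuality

open Vale.Agent.P126
open scoped Pointwise

/-- For every natural `m ≥ 1`: `log N(K,L) ≤ b m log N(L°, a⁻¹K°)` with
`a = C m (1 + log N(K,L)) ^ (1/m)`, and `log N(L°, a'K°) ≤ b m log N(K,L)` with
`a' = C m (1 + log N(L°,K°)) ^ (1/m)`, in every dimension. -/
theorem result :
    ∃ C b : ℝ, 1 ≤ C ∧ 1 ≤ b ∧ ∀ (m : ℕ), 1 ≤ m → ∀ (n : ℕ)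
      (K L : Set (EuclideanSpace ℝ (Fin n))), IsSymBody K → IsSymBody L →
        Real.log (covNum K L) ≤ b * m * Real.log (covNum (polarBody L)
            ((C * m * (1 + Real.log (covNum K L)) ^ (1 / (m : ℝ)))⁻¹ • polarBody K)) ∧
        Real.log (covNum (polarBody L)
            ((C * m * (1 + Real.log (covNum (polarBody L) (polarBody K))) ^ (1 / (m : ℝ))) •
              polarBody K)) ≤ b * m * Real.log (covNum K L) :=
  ⟨3000000000000000, 12, by norm_num, by norm_num,
    fun _ hm _ _ _ hK hL => Tilt.tilt_duality_both hK hL hm⟩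

end Vale.Agent.Results.P126.PowerScaleDuality
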